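import Vale.Agent.P272.MathlibUsed

open scoped Manifold ContDiff Topology Laplacian
open MeasureTheory Set WithLp

noncomputable section

namespace Vale.Agent.P272.Stmt

/-- Complex Euclidean space of dimension `n`. -/
abbrev Cn (n : ℕ) := EuclideanSpace ℂ (Fin n)

/-- The complex Jacobian determinant `det (∂ f_i / ∂ z_j)` at `z` of a map of `Cn n` to itself. -/
def jac {n : ℕ} (f : Cn n → Cn n) (z : Cn n) : ℂ :=
  Matrix.det fun i j : Fin n => deriv (fun ζ : ℂ => f (toLp 2 (Function.update z j ζ)) i) (z j)

/-- `f` is smooth and strictly plurisubharmonic at `z`: it is smooth and, for `ξ ≠ 0`, the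
Laplacian at `ζ = 0` of `ζ ↦ f (z + ζ ξ)` (four times the Levi form of `f` at `z` on `ξ`) is
positive. -/
def StrictlyPSHAt {n : ℕ} (f : Cn n → ℝ) (z : Cn n) : Prop :=
  ContDiffAt ℝ ∞ f z ∧ ∀ ξ : Fin n → ℂ, ξ ≠ 0 →
    0 < Δ (fun ζ : ℂ => f (toLp 2 fun j => z j + ζ * ξ j)) 0

/-- Local coordinate systems on `M` with values in `Cn n`. -/
abbrev Coord (n : ℕ) (M : Type*) [TopologicalSpace M] := OpenPartialHomeomorph M (Cn n)

section
variable {n : ℕ} {M : Type*} [TopologicalSpace M]

/-- A coordinate system as a map. -/
def Coord.map (e : Coord n M) : M → Cn n := e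

/-- The inverse of a coordinate system. -/
def Coord.inv (e : Coord n M) : Cn n → M := e.symm

/-- The Jacobian determinant of the change of coordinates `e' ∘ e⁻¹` at the point `x`. -/
def cjac (e e' : Coord n M) (x : M) : ℂ := jac (fun w => e'.map (e.inv w)) (e.map x)

variable [ChartedSpace (Cn n) M]

variable (n) in
/-- The preferred chart at `z`. -/
def cht (z : M) : Coord n M := chartAt (Cn n) z

/-- `e` is one of the charts of the atlas of `M` and is defined at `x`. -/
def Coord.At (e : Coord n M) (x : M) : Prop := e ∈ atlas (Cn n) M ∧ x ∈ e.source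

end

/-- `M` is a complex manifold of dimension `n`. -/
class IsCplx (n : ℕ) (M : Type*) [TopologicalSpace M] [ChartedSpace (Cn n) M] : Prop where
  holo : IsManifold 𝓘(ℂ, Cn n) ω M

/-- A smooth strictly plurisubharmonic function on a complex manifold. -/
def StrictlyPSH (n : ℕ) {M : Type*} [TopologicalSpace M] [ChartedSpace (Cn n) M]
    (ρ : M → ℝ) : Prop :=
  ∀ (e : Coord n M) (x : M), e.At x → StrictlyPSHAt (fun z => ρ (e.inv z)) (e.map x)

/-- A holomorphic `m`-canonical form on `M` (a holomorphic section of the `m`-th power of the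
canonical bundle), given by its coefficient functions in the charts of `M`. -/
structure PluriForm (n m : ℕ) (M : Type*) [TopologicalSpace M] [ChartedSpace (Cn n) M] where
  coeff : Coord n M → Cn n → ℂ
  holo : ∀ (e : Coord n M) (x : M), e.At x → AnalyticAt ℂ (coeff e) (e.map x)
  change : ∀ (e e' : Coord n M) (x : M), e.At x → e'.At x →
    coeff e (e.map x) = coeff e' (e'.map x) * cjac e e' x ^ m

/-- A holomorphic covering map: a surjective topological covering map that is a local
biholomorphism. -/
structure HolCovering (n : ℕ) {D X : Type*} [TopologicalSpace D] [ChartedSpace (Cn n) D]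
    [TopologicalSpace X] [ChartedSpace (Cn n) X] (p : D → X) : Prop where
  covering : IsCoveringMap p
  surjective : Function.Surjective p
  localBihol : IsLocalDiffeomorph 𝓘(ℂ, Cn n) 𝓘(ℂ, Cn n) ω p

section
variable {n m : ℕ} {D X : Type*} [TopologicalSpace D] [ChartedSpace (Cn n) D]
  [TopologicalSpace X] [ChartedSpace (Cn n) X]

/-- The value at `z` of a form `s` in the preferred chart at `z`. -/
def PluriForm.val (s : PluriForm n m D) (z : D) : ℂ := s.coeff (cht n z) ((cht n z).map z)

/-- The coefficient at `z : D` of a form `s` on `D` with respect to the local coordinate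
`e ∘ p` of `D` obtained by lifting a chart `e` of `X` through `p : D → X`. -/
def liftCoeff (s : PluriForm n m D) (p : D → X) (e : Coord n X) (z : D) : ℂ :=
  s.val z / jac (fun w => e.map (p ((cht n z).inv w))) ((cht n z).map z) ^ m

/-- Square integrability of an `m`-canonical form on `D` with respect to the metric lifted from
the compact manifold `X` through the covering `p : D → X`: near each point of each chart of
`X` the sum over the fibres of `p` of the squared coefficients is integrable. -/
def SquareIntegrable (s : PluriForm n m D) (p : D → X) : Prop :=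
  ∀ (e : Coord n X) (x : X), e.At x → ∃ K : Set (Fin n → ℂ), K ∈ 𝓝 (ofLp (e.map x)) ∧
    ∫⁻ w : Fin n → ℂ in K, ∑' z : D, (p ⁻¹' {e.inv (toLp 2 w)}).indicator
      (fun z => ‖liftCoeff s p e z‖ₑ ^ 2) z < ⊤

end

/-- The canonical bundle of `X` is positive: there is a smooth Hermitian metric on it, of
local weights `φ e`, whose curvature form is positive. -/
def CanonicalPositive (n : ℕ) (X : Type*) [TopologicalSpace X] [ChartedSpace (Cn n) X] : Prop :=
  ∃ φ : Coord n X → Cn n → ℝ,
    (∀ (e : Coord n X) (x : X), e.At x → StrictlyPSHAt (φ e) (e.map x)) ∧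
    (∀ (e e' : Coord n X) (x : X), e.At x → e'.At x →
      φ e (e.map x) = φ e' (e'.map x) + Real.log (‖cjac e e' x‖ ^ 2))

end Vale.Agent.P272.Stmt
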